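import Vale.Agent.P141.H808.LcaEnd

/-!
# P141, line (A), increasing part: the numbers of the pair `(Ct, A)`, one leaf per field

`FEn`, `FVar`, `FDr`, `FBorn`, `FCross`, `FCap` : the fields of `Num` for the definite families,
summed over the `x0`; `FA` : the scalar slot; `numCA_of` : the assembly.
-/

namespace Vale.Agent.P141.H808

open Finset Matrix
open Vale.Agent.P141.PL (Pt iv cx)
open Vale.Agent.P141.PL.H315 (Tri)
open Vale.Agent.P141.H48 (US ES BSl)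
open Vale.Agent.P141.H305 (ClsM kapM)
open Vale.Agent.P141.H401 (StQ cA cb mC)
open Vale.Agent.P141.H677 (KT GT rt cP tr_T)
open Vale.Agent.P141.H652 (eb)
open Vale.Agent.P141.H103 (GW)
open Vale.Agent.P141.H505.Sk1 (Num NumA PairACr Ch W3 eT eM)
open Vale.Agent.P141.H44.Ti (At Cs Ww ah')
open Vale.Agent.P141.H408

noncomputable section

open scoped Classical

set_option linter.unusedVariables false

/-! ### Quantifiers -/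

/-- a constant factor in the number -/
theorem _root_.Vale.Agent.P141.H408.PairQ.map {Φ Ψ : StQ} {M : ℝ} (hM : 0 ≤ M) (H : PairQ Φ)
    (h : ∀ (ι : Type) [Fintype ι] [DecidableEq ι] (p : H401.Num) (n : ℕ) (ez : ℝ)
      (F1 F2 F3 : ℕ → Pt → ℝ) (o : ℤ) (K : ℕ) (x : Pt) (s r : ℝ) (U : Tri) (g : ℤ → ℤ → ℝ)
      (u v : ℤ → ℤ → ι → ℝ) (Q1 Q2 Q3 : ℕ → Pt → Prop) (X : ℝ), 0 < p.t → 0 < s → 1 ≤ r →
      0 < ez → 0 ≤ X → Φ ι p n ez F1 F2 F3 o K x s r U g u v Q1 Q2 Q3 X →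
      Ψ ι p n ez F1 F2 F3 o K x s r U g u v Q1 Q2 Q3 (M * X)) : PairQ Ψ := by
  intro a ha ha1
  obtain ⟨es, hes, H⟩ := H a ha ha1
  refine ⟨es, hes, fun e0 he0 he0' => ?_⟩
  obtain ⟨k8s, hk8s, H⟩ := H e0 he0 he0'
  refine ⟨k8s, hk8s, fun k8 hk8 hk8' => ?_⟩
  obtain ⟨k3s, hk3s, H⟩ := H k8 hk8 hk8'
  refine ⟨k3s, hk3s, fun k3 hk3 hk3' δ hδ => ?_⟩
  obtain ⟨c1, d0, hc1, hd0, H⟩ := H k3 hk3 hk3' δ hδ
  refine ⟨c1, d0, hc1, hd0, fun c hc hcc d hd hdd Kt e cP L hK he hcP hL => ?_⟩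
  obtain ⟨C, hC, H⟩ := H c hc hcc d hd hdd Kt e cP L hK he hcP hL
  refine ⟨M * C, by positivity, ?_⟩
  intro t ht ht1 n ez F1 F2 F3 h1 h3 h2 o ho K hKn x ι _ _ s r U g u v hs hr hcls Q1 Q2 Q3 q1 q2 q3
    hez
  have h4 := h ι _ n ez F1 F2 F3 o K x s r U g u v Q1 Q2 Q3 _ ht hs hr hez
    (mul_nonneg hC (Real.rpow_nonneg (div_nonneg ht.le (by linarith)) _))
    (H t ht ht1 n ez F1 F2 F3 h1 h3 h2 o ho K hKn x ι s r U g u v hs hr hcls Q1 Q2 Q3 q1 q2 q3 hez)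
  rwa [← mul_assoc] at h4

/-! ### The families and the weight -/

section letters

variable {ι : Type} [Fintype ι] [DecidableEq ι]

/-- the third slot, normalised and stopped at the time `K`, order `x1`, `x3` -/
abbrev cS (p : H401.Num) (ez : ℝ) (U : Tri) (K : ℕ) (v : ℤ → ℤ → ι → ℝ) (F2 : ℕ → Pt → ℝ)
    (x0 : ℤ) : ℕ → ℤ → ℤ → ι → ℝ := Cs (C1 p ez U K v F2) K x0

/-- the scalar slot, stopped at the time `K`, order `x2`, `x3` -/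
abbrev aS (p : H401.Num) (s r : ℝ) (U : Tri) (K : ℕ) (g : ℤ → ℤ → ℝ) (F1 : ℕ → Pt → ℝ)
    (Q1 : ℕ → Pt → Prop) (x0 : ℤ) : ℕ → ℤ → ℤ → ℝ := At (cA p s r U K g F1 Q1) K x0

/-- the weight -/
abbrev thS (p : H401.Num) (s r : ℝ) (o : ℤ) (K : ℕ) (x : Pt) (u : ℤ → ℤ → ι → ℝ) (x0 : ℤ) :
    ℤ → ℕ → ℤ → Matrix ι ι ℝ := Ww (beI p r) (p.lam s r) o K (cx K x) u x0

/-- the move -/
abbrev mS (p : H401.Num) (s r : ℝ) (o : ℤ) (K : ℕ) (x : Pt) (u : ℤ → ℤ → ι → ℝ) (x0 : ℤ) :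
    ℤ → ℕ → ℤ → Matrix ι ι ℝ :=
  fun x1 k m => ah' (p.lam s r) K (cx K x).2.1 (KT (p.lam s r) u) (o - 2) x0 x1 k m

/-- the drift -/
abbrev nS (p : H401.Num) (s r : ℝ) (o : ℤ) (K : ℕ) (x : Pt) (u : ℤ → ℤ → ι → ℝ) (x0 : ℤ) :
    ℤ → ℕ → ℤ → Matrix ι ι ℝ :=
  fun x1 k m => eb (p.lam s r) K (cx K x).2.1 (KT (p.lam s r) u x1) (o - 2) x0 x1 k m

/-- the weight is positive definite -/
theorem thS_pd {p : H401.Num} (ht : 0 < p.t) {s r : ℝ} (hs : 0 < s) (hr : 1 ≤ r) (o : ℤ) (K : ℕ)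
    (x : Pt) (u : ℤ → ℤ → ι → ℝ) (x0 x1 : ℤ) (k : ℕ) (m : ℤ) :
    (thS p s r o K x u x0 x1 k m).PosDef :=
  Wg_pd (Real.rpow_pos_of_pos (div_pos ht (by linarith)) _)
    (fun x1 => tr_T (H401.Num.lam_pos (p := p) ht hs hr) K u x1) (o - 2) x0 x1 k m

omit [DecidableEq ι] in
theorem form_nonneg {A : Matrix ι ι ℝ} (h : A.PosSemidef) (w : ι → ℝ) : 0 ≤ w ⬝ᵥ A *ᵥ w := by
  have h1 := h.dotProduct_mulVec_nonneg w
  simpa only [star_trivial] using h1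

omit [DecidableEq ι] in
theorem eT_nonneg {Th : ℤ → ℕ → ℤ → Matrix ι ι ℝ} (h : ∀ x k m, (Th x k m).PosDef)
    (c : ℤ → ℤ → ι → ℝ) (k : ℕ) (x z : ℤ) : 0 ≤ eT c Th k x z :=
  form_nonneg (h _ _ _).posSemidef _

theorem eM_nonneg {Th : ℤ → ℕ → ℤ → Matrix ι ι ℝ} (h : ∀ x k m, (Th x k m).PosDef)
    (M : ℤ → ℕ → ℤ → Matrix ι ι ℝ) (c : ℤ → ℤ → ι → ℝ) (k : ℕ) (x z : ℤ) :
    0 ≤ eM c Th M k x z :=
  add_nonneg (form_nonneg (h _ _ _).inv.posSemidef _) (form_nonneg (h _ _ _).inv.posSemidef _)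

omit [DecidableEq ι] in
theorem W3_tr_nonneg {Th : ℤ → ℕ → ℤ → Matrix ι ι ℝ} (h : ∀ x k m, (Th x k m).PosDef)
    (c : ℤ → ℤ → ι → ℝ) (k a : ℕ) (n m : ℤ) : 0 ≤ (W3 c Th k a n m).trace := by
  unfold W3 Matrix.trace
  refine sum_nonneg fun j _ => ?_
  unfold H103.QW
  refine mul_nonneg (by positivity) (sum_nonneg fun x _ => ?_)
  exact form_nonneg (h _ _ _).posSemidef _

end letters

theorem GW_nonneg' {N : ℕ} {R S T : ℤ} {k : ℕ} {c : ℤ} {g : ℤ → ℤ → ℤ → ℝ}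
    (h : ∀ n n' m, 0 ≤ g n n' m) : 0 ≤ GW N R S T k c g := by
  unfold H103.GW
  refine mul_nonneg (by positivity) (sum_nonneg fun m _ => sum_nonneg fun n _ => ?_)
  split_ifs
  · exact h _ _ _
  · exact le_rfl

/-! ### The leaves -/

/-- **energy** of the stack at every scale, times `k` and `k + 1` at the scale `k` -/
def FEn : Prop := PairQ fun ι _ _ p _ ez _ F2 _ o K x s r U _ u v _ _ _ X =>
  ∃ E : ℤ → ℝ, (∀ x0, 0 ≤ E x0) ∧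
    (∀ t ∈ rt (cx K x), ∀ x0 ∈ iv K t, ∀ k ≤ K, ∀ j, k ≤ j → j ≤ k + 1 →
      ∑ x1 ∈ iv K (cx K x).1, ∑ z ∈ iv K (cx K x).2.2,
        eT (cS p ez U K v F2 x0 j) (thS p s r o K x u x0) k x1 z ≤ E x0) ∧
    ∑ t ∈ rt (cx K x), ∑ x0 ∈ iv K t, E x0 ≤ X * (s * 8 ^ K) * (p.t / r) ^ (p.e0 / 2)

/-- **quadratic variation** of the stack -/
def FVar : Prop := PairQ fun ι _ _ p _ ez _ F2 _ o K x s r U _ u v _ _ _ X =>
  ∑ t ∈ rt (cx K x), ∑ x0 ∈ iv K t, ∑ k ∈ Ico 0 K,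
    ∑ x1 ∈ iv K (cx K x).1, ∑ z ∈ iv K (cx K x).2.2,
      eM (cS p ez U K v F2 x0 (k + 1)) (thS p s r o K x u x0) (mS p s r o K x u x0) k x1 z ≤
    X * (s * 8 ^ K) * (p.t / r) ^ (p.e0 / 2)

/-- **drift** of the stack -/
def FDr : Prop := PairQ fun ι _ _ p _ ez _ F2 _ o K x s r U _ u v _ _ _ X =>
  ∑ t ∈ rt (cx K x), ∑ x0 ∈ iv K t, ∑ k ∈ Ico 0 K,
    ∑ x1 ∈ iv K (cx K x).1, ∑ z ∈ iv K (cx K x).2.2,
      cS p ez U K v F2 x0 (k + 1) x1 z ⬝ᵥ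
        nS p s r o K x u x0 x1 (k + 1) (PL.ix (k + 1) z) *ᵥ cS p ez U K v F2 x0 (k + 1) x1 z ≤
    X * (s * 8 ^ K) * (p.t / r) ^ (p.e0 / 2)

/-- **births** of the stack -/
def FBorn : Prop := PairQ fun ι _ _ p _ ez _ F2 _ o K x s r U _ u v _ _ _ X =>
  ∑ t ∈ rt (cx K x), ∑ x0 ∈ iv K t, ∑ k ∈ Ico 0 K,
    ∑ x1 ∈ iv K (cx K x).1, ∑ z ∈ iv K (cx K x).2.2,
      (if Ch (cS p ez U K v F2 x0) k (PL.ix k x1) (PL.ix k z) then
        eT (cS p ez U K v F2 x0 (k + 1)) (thS p s r o K x u x0) k x1 z else 0) ≤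
    X * (s * 8 ^ K) * (p.t / r) ^ (p.e0 / 2)

/-- **cross births**: the stack on the nodes where `A` or the stack changes -/
def FCross : Prop := PairQ fun ι _ _ p _ ez F1 F2 _ o K x s r U g u v Q1 _ _ X =>
  ∑ t ∈ rt (cx K x), ∑ x0 ∈ iv K t, ∑ k ∈ Ico 0 K,
    GW K (cx K x).2.1 (cx K x).2.2 (cx K x).1 k (cP o x0 k) (fun n2 n1 m =>
      if Ch (aS p s r U K g F1 Q1 x0) k n2 m ∨ Ch (cS p ez U K v F2 x0) k n1 m then
        (W3 (cS p ez U K v F2 x0 (k + 1)) (thS p s r o K x u x0) k k n1 m).trace else 0) ≤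
    X * (s * 8 ^ K) * (p.t / r) ^ (p.e0 / 2)

/-- **cap** of the stack -/
def FCap : Prop := PairQ fun ι _ _ p _ ez _ F2 _ o K x s r U _ u v _ _ _ _ =>
  ∀ t ∈ rt (cx K x), ∀ x0 ∈ iv K t, ∀ k a n m, k ≤ K → a ≤ K → ∀ j, min k a ≤ j →
    j ≤ min k a + 1 → n ∈ iv (K - a) (cx K x).1 → m ∈ iv (K - k) (cx K x).2.2 →
    (cCI p s r ^ 2 • (1 : Matrix (P075.Ix k) (P075.Ix k) ℝ) -
      W3 (cS p ez U K v F2 x0 j) (thS p s r o K x u x0) k a n m).PosSemidef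

/-- **the scalar slot** -/
def FA : Prop := PairQ fun ι _ _ p _ ez F1 F2 _ o K x s r U g _ v Q1 _ _ X =>
  ∃ EA : ℤ → ℝ, (∀ x0, 0 ≤ EA x0) ∧
    (∀ t ∈ rt (cx K x), ∀ x0 ∈ iv K t,
      NumA 0 K (cx K x).1 (cx K x).2.1 (cx K x).2.2 (cP o x0) (aS p s r U K g F1 Q1 x0)
        (cS p ez U K v F2 x0) (tauI p s r ^ 2) (EA x0)) ∧
    ∑ t ∈ rt (cx K x), ∑ x0 ∈ iv K t, EA x0 ≤ X * (s * 8 ^ K)

/-! ### The assembly -/

theorem pos_V {p : H401.Num} {s r : ℝ} {K : ℕ} (ht : 0 < p.t) (hs : 0 < s) (hr : 1 ≤ r) :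
    0 ≤ (s * 8 ^ K) * (p.t / r) ^ (p.e0 / 2) :=
  mul_nonneg (by positivity) (Real.rpow_nonneg (div_nonneg ht.le (by linarith)) _)

theorem up_V {p : H401.Num} {s r : ℝ} {K : ℕ} (ht : 0 < p.t) (hs : 0 < s) (hr : 1 ≤ r) {X X' : ℝ}
    (h : X ≤ X') : X * (s * 8 ^ K) * (p.t / r) ^ (p.e0 / 2) ≤
      X' * (s * 8 ^ K) * (p.t / r) ^ (p.e0 / 2) := by
  rw [mul_assoc X, mul_assoc X']
  exact mul_le_mul_of_nonneg_right h (pos_V ht hs hr)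

/-- **The numbers of the pair from the fields.** -/
theorem numCA_of (h1 : FEn) (h2 : FVar) (h3 : FDr) (h4 : FBorn) (h5 : FCross) (h6 : FCap)
    (h7 : FA) : NumCA := by
  have g12 := PairQ.and h1 h2
    (by
      rintro ι _ _ p n ez F1 F2 F3 o K x s r U g u v Q1 Q2 Q3 X X' ht hs hr _ hX ⟨E, a1, a2, a3⟩
      exact ⟨E, a1, a2, a3.trans (up_V ht hs hr hX)⟩)
    (by
      intro ι _ _ p n ez F1 F2 F3 o K x s r U g u v Q1 Q2 Q3 X X' ht hs hr _ hX h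
      exact le_trans h (up_V ht hs hr hX))
  have g34 := PairQ.and h3 h4
    (by
      intro ι _ _ p n ez F1 F2 F3 o K x s r U g u v Q1 Q2 Q3 X X' ht hs hr _ hX h
      exact le_trans h (up_V ht hs hr hX))
    (by
      intro ι _ _ p n ez F1 F2 F3 o K x s r U g u v Q1 Q2 Q3 X X' ht hs hr _ hX h
      exact le_trans h (up_V ht hs hr hX))
  have g56 := PairQ.and h5 h6
    (by
      intro ι _ _ p n ez F1 F2 F3 o K x s r U g u v Q1 Q2 Q3 X X' ht hs hr _ hX h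
      exact le_trans h (up_V ht hs hr hX))
    (by
      intro ι _ _ p n ez F1 F2 F3 o K x s r U g u v Q1 Q2 Q3 X X' ht hs hr _ hX h
      exact h)
  have g1234 := PairQ.and g12 g34
    (by
      rintro ι _ _ p n ez F1 F2 F3 o K x s r U g u v Q1 Q2 Q3 X X' ht hs hr _ hX
        ⟨⟨E, a1, a2, a3⟩, h⟩
      exact ⟨⟨E, a1, a2, a3.trans (up_V ht hs hr hX)⟩, le_trans h (up_V ht hs hr hX)⟩)
    (by
      rintro ι _ _ p n ez F1 F2 F3 o K x s r U g u v Q1 Q2 Q3 X X' ht hs hr _ hX ⟨h, h'⟩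
      exact ⟨le_trans h (up_V ht hs hr hX), le_trans h' (up_V ht hs hr hX)⟩)
  have g567 := PairQ.and g56 h7
    (by
      rintro ι _ _ p n ez F1 F2 F3 o K x s r U g u v Q1 Q2 Q3 X X' ht hs hr _ hX ⟨h, h'⟩
      exact ⟨le_trans h (up_V ht hs hr hX), h'⟩)
    (by
      rintro ι _ _ p n ez F1 F2 F3 o K x s r U g u v Q1 Q2 Q3 X X' ht hs hr _ hX ⟨EA, a1, a2, a3⟩
      exact ⟨EA, a1, a2, a3.trans (mul_le_mul_of_nonneg_right hX (by positivity))⟩)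
  have g := PairQ.and g1234 g567
    (by
      rintro ι _ _ p n ez F1 F2 F3 o K x s r U g u v Q1 Q2 Q3 X X' ht hs hr _ hX
        ⟨⟨⟨E, a1, a2, a3⟩, h⟩, h', h''⟩
      exact ⟨⟨⟨E, a1, a2, a3.trans (up_V ht hs hr hX)⟩, le_trans h (up_V ht hs hr hX)⟩,
        le_trans h' (up_V ht hs hr hX), le_trans h'' (up_V ht hs hr hX)⟩)
    (by
      rintro ι _ _ p n ez F1 F2 F3 o K x s r U g u v Q1 Q2 Q3 X X' ht hs hr _ hX
        ⟨⟨h, h'⟩, EA, a1, a2, a3⟩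
      exact ⟨⟨le_trans h (up_V ht hs hr hX), h'⟩, EA, a1, a2,
        a3.trans (mul_le_mul_of_nonneg_right hX (by positivity))⟩)
  refine PairQ.map (M := 5) (by norm_num) g ?_
  rintro ι _ _ p n ez F1 F2 F3 o K x s r U g u v Q1 Q2 Q3 X ht hs hr hez hX
    ⟨⟨⟨⟨En, hE0, hEn, hEs⟩, hV⟩, hD, hB⟩, ⟨hC, hcap⟩, EA, hA0, hA, hAs⟩
  have hpd : ∀ x0 x1 k m, (thS p s r o K x u x0 x1 k m).PosDef := fun x0 x1 k m =>
    thS_pd ht hs hr o K x u x0 x1 k m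
  have hnp : ∀ x0 x1 k m, (nS p s r o K x u x0 x1 k m).PosSemidef := fun x0 x1 k m =>
    H652.eb_psd (tr_T (H401.Num.lam_pos (p := p) ht hs hr) K u x1) (o - 2) x0 x1 k m
  set vV : ℤ → ℝ := fun x0 => ∑ k ∈ Ico 0 K, ∑ x1 ∈ iv K (cx K x).1, ∑ z ∈ iv K (cx K x).2.2,
    eM (cS p ez U K v F2 x0 (k + 1)) (thS p s r o K x u x0) (mS p s r o K x u x0) k x1 z with hvV
  set vD : ℤ → ℝ := fun x0 => ∑ k ∈ Ico 0 K, ∑ x1 ∈ iv K (cx K x).1, ∑ z ∈ iv K (cx K x).2.2,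
    cS p ez U K v F2 x0 (k + 1) x1 z ⬝ᵥ
      nS p s r o K x u x0 x1 (k + 1) (PL.ix (k + 1) z) *ᵥ cS p ez U K v F2 x0 (k + 1) x1 z with hvD
  set vB : ℤ → ℝ := fun x0 => ∑ k ∈ Ico 0 K, ∑ x1 ∈ iv K (cx K x).1, ∑ z ∈ iv K (cx K x).2.2,
    (if Ch (cS p ez U K v F2 x0) k (PL.ix k x1) (PL.ix k z) then
      eT (cS p ez U K v F2 x0 (k + 1)) (thS p s r o K x u x0) k x1 z else 0) with hvB
  set vC : ℤ → ℝ := fun x0 => ∑ k ∈ Ico 0 K,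
    GW K (cx K x).2.1 (cx K x).2.2 (cx K x).1 k (cP o x0 k) (fun n2 n1 m =>
      if Ch (aS p s r U K g F1 Q1 x0) k n2 m ∨ Ch (cS p ez U K v F2 x0) k n1 m then
        (W3 (cS p ez U K v F2 x0 (k + 1)) (thS p s r o K x u x0) k k n1 m).trace else 0) with hvC
  have nV : ∀ x0, 0 ≤ vV x0 := fun x0 => sum_nonneg fun k _ => sum_nonneg fun x1 _ =>
    sum_nonneg fun z _ => eM_nonneg (hpd x0) _ _ _ _ _
  have nD : ∀ x0, 0 ≤ vD x0 := fun x0 => sum_nonneg fun k _ => sum_nonneg fun x1 _ =>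
    sum_nonneg fun z _ => form_nonneg (hnp _ _ _ _) _
  have nB : ∀ x0, 0 ≤ vB x0 := fun x0 => sum_nonneg fun k _ => sum_nonneg fun x1 _ =>
    sum_nonneg fun z _ => by
      split_ifs
      · exact eT_nonneg (hpd x0) _ _ _ _
      · exact le_rfl
  have nC : ∀ x0, 0 ≤ vC x0 := fun x0 => sum_nonneg fun k _ => GW_nonneg' fun n n' m => by
      split_ifs
      · exact W3_tr_nonneg (hpd x0) _ _ _ _ _
      · exact le_rfl
  refine ⟨fun _ _ _ _ => 0, fun x0 => En x0 + vV x0 + vD x0 + vB x0 + vC x0, EA, fun x0 => ?_, hA0,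
    fun t h1 x0 h2 => ?_, hA, ?_, ?_⟩
  · have := hE0 x0
    have := nV x0
    have := nD x0
    have := nB x0
    have := nC x0
    positivity
  · have e0 := hE0 x0
    have e1 := nV x0
    have e2 := nD x0
    have e3 := nB x0
    have e4 := nC x0
    refine ⟨fun k _ hk j hj hj' => ?_, ?_, ?_, ?_, ?_, ?_⟩
    · have := hEn t h1 x0 h2 k hk j hj hj'
      linarith
    · show vV x0 ≤ _
      linarith
    · show vD x0 ≤ _
      linarith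
    · show vB x0 ≤ _
      linarith
    · have e5 : ∀ k (n1 n2 : ℤ), ¬ Ch (fun _ _ _ => (0 : ι → ℝ)) k n1 n2 := fun k n1 n2 h => by
        obtain ⟨_, _, _, _, h6⟩ := h
        exact h6 rfl
      simp only [e5, false_or]
      show vC x0 ≤ _
      linarith
    · intro k a n m _ _ hk ha j hj hj' hn hm
      exact hcap t h1 x0 h2 k a n m hk ha j hj hj' hn hm
  · have e6 : ∑ t ∈ rt (cx K x), ∑ x0 ∈ iv K t, (En x0 + vV x0 + vD x0 + vB x0 + vC x0) =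
        ∑ t ∈ rt (cx K x), ∑ x0 ∈ iv K t, En x0 + ∑ t ∈ rt (cx K x), ∑ x0 ∈ iv K t, vV x0 +
        ∑ t ∈ rt (cx K x), ∑ x0 ∈ iv K t, vD x0 + ∑ t ∈ rt (cx K x), ∑ x0 ∈ iv K t, vB x0 +
        ∑ t ∈ rt (cx K x), ∑ x0 ∈ iv K t, vC x0 := by
      simp only [sum_add_distrib]
    rw [e6]
    have hV' : ∑ t ∈ rt (cx K x), ∑ x0 ∈ iv K t, vV x0 ≤ _ := hV
    have hD' : ∑ t ∈ rt (cx K x), ∑ x0 ∈ iv K t, vD x0 ≤ _ := hD
    have hB' : ∑ t ∈ rt (cx K x), ∑ x0 ∈ iv K t, vB x0 ≤ _ := hB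
    have hC' : ∑ t ∈ rt (cx K x), ∑ x0 ∈ iv K t, vC x0 ≤ _ := hC
    have e7 : 5 * X * (s * 8 ^ K) * (p.t / r) ^ (p.e0 / 2) =
        X * (s * 8 ^ K) * (p.t / r) ^ (p.e0 / 2) + X * (s * 8 ^ K) * (p.t / r) ^ (p.e0 / 2) +
        X * (s * 8 ^ K) * (p.t / r) ^ (p.e0 / 2) + X * (s * 8 ^ K) * (p.t / r) ^ (p.e0 / 2) +
        X * (s * 8 ^ K) * (p.t / r) ^ (p.e0 / 2) := by ring
    rw [e7]
    exact add_le_add (add_le_add (add_le_add (add_le_add hEs hV') hD') hB') hC'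
  · refine hAs.trans (mul_le_mul_of_nonneg_right ?_ (by positivity))
    linarith

end

end Vale.Agent.P141.H808
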