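import Vale.Agent.P141.H808.LcaG
import Vale.Agent.P141.H681.FEn
import Vale.Agent.P141.H576.FBorn
import Vale.Agent.P141.H989.FCross

/-!
# P141, line (A), increasing part: the leaf `LCA`
-/

namespace Vale.Agent.P141.H808

/-- **The leaf `LCA`.** -/
theorem lCA : H408.LCA := lca_of3 H681.fEn H576.fBorn H989.FX.fCross

/-- **The leaf `LCAu`.** -/
theorem lCAu : H408.LCAu := lCA.toU

end Vale.Agent.P141.H808
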