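import Vale.Agent.P141.H44.LcaP
import Vale.Agent.P141.H408.SkelTI2

/-!
# P141, line (A), increasing part: last step of the moving pair `(Ct, A)`

`NumCA` : the numbers of the raw pair theorem at class data, at every `x0` and summed over `x0`;
`lca_end` : the leaf `LCA` of `H408.SkelTI2` from `PairACr` and `NumCA`.
-/

namespace Vale.Agent.P141.H808

open Finset Matrix
open Vale.Agent.P141.PL (Pt iv cx)
open Vale.Agent.P141.H401 (cA cb mC)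
open Vale.Agent.P141.H677 (KT rt cP)
open Vale.Agent.P141.H652 (eb)
open Vale.Agent.P141.H505.Sk1 (Num NumA PairACr)
open Vale.Agent.P141.H44.Ti (At Cs Ww ah' PCAf_pair)
open Vale.Agent.P141.H408

noncomputable section

open scoped Classical

/-- **The numbers of the pair `(Ct, A)` at class data**: `E x0` the energies of the stack, `EA x0`
the energies of the scalar slot. -/
def NumCA : Prop := PairQ fun ι _ _ p _ ez F1 F2 _ o K x s r U g u v Q1 _ _ X =>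
  ∃ (bs : ℤ → ℕ → ℤ → ℤ → ι → ℝ) (E EA : ℤ → ℝ),
    (∀ x0, 0 ≤ E x0) ∧ (∀ x0, 0 ≤ EA x0) ∧
    (∀ t ∈ rt (cx K x), ∀ x0 ∈ iv K t,
      Num 0 K (cx K x).1 (cx K x).2.1 (cx K x).2.2 (cP o x0) (At (cA p s r U K g F1 Q1) K x0)
        (bs x0) (Cs (C1 p ez U K v F2) K x0) (Ww (beI p r) (p.lam s r) o K (cx K x) u x0)
        (fun x1 k m => ah' (p.lam s r) K (cx K x).2.1 (KT (p.lam s r) u) (o - 2) x0 x1 k m)
        (fun x1 k m => eb (p.lam s r) K (cx K x).2.1 (KT (p.lam s r) u x1) (o - 2) x0 x1 k m)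
        (E x0) (cCI p s r)) ∧
    (∀ t ∈ rt (cx K x), ∀ x0 ∈ iv K t,
      NumA 0 K (cx K x).1 (cx K x).2.1 (cx K x).2.2 (cP o x0) (At (cA p s r U K g F1 Q1) K x0)
        (Cs (C1 p ez U K v F2) K x0) (tauI p s r ^ 2) (EA x0)) ∧
    ∑ t ∈ rt (cx K x), ∑ x0 ∈ iv K t, E x0 ≤ X * (s * 8 ^ K) * (p.t / r) ^ (p.e0 / 2) ∧
    ∑ t ∈ rt (cx K x), ∑ x0 ∈ iv K t, EA x0 ≤ X * (s * 8 ^ K)

/-- the cap of the scalar slot is monotone -/
theorem numA_mono {κ : Type} {k₀ N : ℕ} {r1 r2 r3 : ℤ}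
    {pl : ℕ → ℤ} {A : ℕ → ℤ → ℤ → ℝ} {c : ℕ → ℤ → ℤ → κ → ℝ} {t2 t2' EA : ℝ} (h : t2 ≤ t2')
    (H : NumA k₀ N r1 r2 r3 pl A c t2 EA) : NumA k₀ N r1 r2 r3 pl A c t2' EA where
  cap k a n m h1 h2 h3 j h4 h5 h6 h7 := by
    have h8 := H.cap k a n m h1 h2 h3 j h4 h5 h6 h7
    have h9 : ((t2' - t2) • (1 : Matrix (P075.Ix k) (P075.Ix k) ℝ)).PosSemidef :=
      PosSemidef.one.smul (sub_nonneg.2 h)
    have e : t2' • (1 : Matrix (P075.Ix k) (P075.Ix k) ℝ) - H103.PA (A j) k a n m =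
        (t2' - t2) • 1 + (t2 • 1 - H103.PA (A j) k a n m) := by
      rw [sub_smul]
      abel
    rw [e]
    exact h9.add h8
  en := H.en
  born := H.born
  cr := H.cr

/-- levels against a small loss -/
theorem exists_levels {δ : ℝ} (hδ : 0 < δ) : ∃ C : ℝ, 0 ≤ C ∧ ∀ y : ℝ, 0 < y → y ≤ 1 →
    ∃ J : ℕ, 2 * y ^ (-3 : ℝ) ≤ 2 ^ J ∧ ((J : ℝ) + 1) ^ 3 ≤ C * y ^ (-δ) := by
  set ε : ℝ := δ / 3 with hε
  have hε0 : 0 < ε := by positivity
  refine ⟨(3 + 5 / ε) ^ 3, by positivity, fun y hy hy1 => ?_⟩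
  set a : ℝ := 2 * y ^ (-3 : ℝ) with ha
  have hy3 : 1 ≤ y ^ (-3 : ℝ) := Real.one_le_rpow_of_pos_of_le_one_of_nonpos hy hy1 (by norm_num)
  have ha1 : 2 ≤ a := by
    rw [ha]
    linarith
  have ha0 : 0 < a := by linarith
  refine ⟨⌈Real.logb 2 a⌉₊, ?_, ?_⟩
  · have h1 : a = 2 ^ Real.logb 2 a := (Real.rpow_logb (by norm_num) (by norm_num) ha0).symm
    rw [← Real.rpow_natCast 2]
    calc a = 2 ^ Real.logb 2 a := h1
      _ ≤ 2 ^ ((⌈Real.logb 2 a⌉₊ : ℕ) : ℝ) :=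
        Real.rpow_le_rpow_of_exponent_le (by norm_num) (Nat.le_ceil _)
  · have hl0 : 0 ≤ Real.logb 2 a := Real.logb_nonneg (by norm_num) (by linarith)
    have h2 : ((⌈Real.logb 2 a⌉₊ : ℕ) : ℝ) ≤ Real.logb 2 a + 1 := (Nat.ceil_lt_add_one hl0).le
    have h3 : Real.logb 2 a = 1 + 3 * Real.logb 2 y⁻¹ := by
      rw [ha, Real.logb_mul (by norm_num) (by positivity), Real.logb_self_eq_one (by norm_num),
        Real.logb_rpow_eq_mul_logb_of_pos hy, Real.logb_inv]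
      ring
    have h4 : Real.logb 2 y⁻¹ ≤ 5 / 3 * (y⁻¹ ^ ε / ε) := by
      have h5 : Real.log y⁻¹ ≤ y⁻¹ ^ ε / ε := Real.log_le_rpow_div (by positivity) hε0
      have h6 : (3 / 5 : ℝ) ≤ Real.log 2 := by
        have := Real.log_two_gt_d9
        linarith
      have h7 : 0 ≤ y⁻¹ ^ ε / ε := by positivity
      unfold Real.logb
      rw [div_le_iff₀ (by linarith)]
      calc Real.log y⁻¹ ≤ y⁻¹ ^ ε / ε := h5
        _ = 5 / 3 * (y⁻¹ ^ ε / ε) * (3 / 5) := by ring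
        _ ≤ 5 / 3 * (y⁻¹ ^ ε / ε) * Real.log 2 :=
          mul_le_mul_of_nonneg_left h6 (by positivity)
    have h8 : y⁻¹ ^ ε = y ^ (-ε) := by
      rw [Real.inv_rpow hy.le, Real.rpow_neg hy.le]
    have h9 : 1 ≤ y ^ (-ε) := Real.one_le_rpow_of_pos_of_le_one_of_nonpos hy hy1 (by linarith)
    have h10 : ((⌈Real.logb 2 a⌉₊ : ℕ) : ℝ) + 1 ≤ (3 + 5 / ε) * y ^ (-ε) := by
      rw [h8] at h4
      calc ((⌈Real.logb 2 a⌉₊ : ℕ) : ℝ) + 1 ≤ 3 + 3 * Real.logb 2 y⁻¹ := by linarith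
        _ ≤ 3 + 3 * (5 / 3 * (y ^ (-ε) / ε)) := by linarith
        _ = 3 * 1 + 5 / ε * y ^ (-ε) := by ring
        _ ≤ 3 * y ^ (-ε) + 5 / ε * y ^ (-ε) := by linarith
        _ = _ := by ring
    calc (((⌈Real.logb 2 a⌉₊ : ℕ) : ℝ) + 1) ^ 3 ≤ ((3 + 5 / ε) * y ^ (-ε)) ^ 3 :=
          pow_le_pow_left₀ (by positivity) h10 3
      _ = (3 + 5 / ε) ^ 3 * y ^ (-δ) := by
          rw [mul_pow, ← Real.rpow_natCast (y ^ (-ε)), ← Real.rpow_mul hy.le]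
          congr 2
          rw [hε]
          push_cast
          ring

/-- **The leaf `LCA` from the raw pair theorem and the numbers.** -/
theorem lca_end {K₀ : ℝ} (hP : PairACr K₀) (hK₀ : 0 ≤ K₀) (H : NumCA) : LCA := by
  intro a ha ha1
  obtain ⟨es, hes, H⟩ := H a ha ha1
  refine ⟨min es 4, lt_min hes (by norm_num), fun e0 he0 he0' => ?_⟩
  obtain ⟨k8s, hk8s, H⟩ := H e0 he0 (he0'.trans (min_le_left _ _))
  refine ⟨k8s, hk8s, fun k8 hk8 hk8' => ?_⟩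
  obtain ⟨k3s, hk3s, H⟩ := H k8 hk8 hk8'
  refine ⟨k3s, hk3s, fun k3 hk3 hk3' δ hδ => ?_⟩
  obtain ⟨c1, d0, hc1, hd0, H⟩ := H k3 hk3 hk3' (δ / 2) (by positivity)
  refine ⟨c1, d0, hc1, hd0, fun c hc hcc d hd hdd Kt e cP L hK he hcP hL => ?_⟩
  obtain ⟨C, hC, H⟩ := H c hc hcc d hd hdd Kt e cP L hK he hcP hL
  obtain ⟨C2, hC2, hJ⟩ := exists_levels (δ := δ / 2) (by positivity)
  refine ⟨2 * K₀ * C2 * C, by positivity, ?_⟩
  intro t ht ht1 n ez F1 F2 F3 h1 h3 h2 o ho K hKn x ι _ _ s r U g u v hs hr hcls Q1 Q2 Q3 q1 q2 q3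
    hez z hz1 hz2
  obtain ⟨bs, E, EA, hE0, hA0, hN, hA, hE, hEA⟩ :=
    H t ht ht1 n ez F1 F2 F3 h1 h3 h2 o ho K hKn x ι s r U g u v hs hr hcls Q1 Q2 Q3 q1 q2 q3 hez
  set p : H401.Num := ⟨a, e0, k8, k3, c, d, Kt, e, cP, L, 1, t⟩ with hp
  have hr0 : 0 < r := by linarith
  set y : ℝ := t / r with hy
  have hy0 : 0 < y := div_pos ht hr0
  have hyt : y ≤ t := by
    rw [hy, div_le_iff₀ hr0]
    nlinarith
  have hy1 : y ≤ 1 := hyt.trans ht1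
  obtain ⟨J, hJ1, hJ2⟩ := hJ y hy0 hy1
  have hth : 0 < p.th s r := H401.Num.th_pos (p := p) ht hs hr
  have hτ : 0 < tauI p s r := by
    unfold tauI
    linarith
  have hye : 0 < y ^ (e0 / 4) := Real.rpow_pos_of_pos hy0 _
  have hg : gI p s r = y ^ (e0 / 4) * tauI p s r := rfl
  have hg0 : 0 < gI p s r := by
    rw [hg]
    positivity
  have hz0 : 0 < z := hg0.trans_le hz1
  have hlam : 0 < p.lam s r := H401.Num.lam_pos (p := p) ht hs hr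
  have hbe : 0 < beI p r := Real.rpow_pos_of_pos hy0 _
  have hs4 : 0 < s ^ (1 / 4 : ℝ) := Real.rpow_pos_of_pos hs _
  -- the height from below
  have hth2 : s ^ (1 / 4 : ℝ) * y ≤ p.th s r := by
    have e1 : p.th s r = t * s ^ (1 / 4 : ℝ) * (t / r) ^ (-k3) := by
      show t ^ (1 - k3) * s ^ (1 / 4 : ℝ) * r ^ k3 = _
      rw [Real.div_rpow ht.le hr0.le, Real.rpow_neg hr0.le, div_inv_eq_mul, sub_eq_add_neg,
        Real.rpow_add ht, Real.rpow_one]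
      ring
    have e2 : 1 ≤ (t / r) ^ (-k3) :=
      Real.one_le_rpow_of_pos_of_le_one_of_nonpos hy0 hy1 (by linarith)
    rw [e1]
    calc s ^ (1 / 4 : ℝ) * y ≤ s ^ (1 / 4 : ℝ) * t := mul_le_mul_of_nonneg_left hyt hs4.le
      _ = t * s ^ (1 / 4 : ℝ) * 1 := by ring
      _ ≤ t * s ^ (1 / 4 : ℝ) * (t / r) ^ (-k3) := mul_le_mul_of_nonneg_left e2 (by positivity)
  have hJz : cCI p s r ^ 2 ≤ 4 ^ J * z ^ 2 := by
    have e3 : cCI p s r ≤ 2 ^ J * z := by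
      have e4 : cCI p s r = 4 * (s ^ (1 / 4 : ℝ) * y⁻¹) := rfl
      have e5 : y * y ≤ y ^ (e0 / 4) * y := by
        refine mul_le_mul_of_nonneg_right ?_ hy0.le
        calc y = y ^ (1 : ℝ) := (Real.rpow_one y).symm
          _ ≤ y ^ (e0 / 4) := Real.rpow_le_rpow_of_exponent_ge hy0 hy1 (by
            have := he0'.trans (min_le_right _ _)
            linarith)
      have e6 : 2 * s ^ (1 / 4 : ℝ) * (y * y) ≤ z := by
        calc 2 * s ^ (1 / 4 : ℝ) * (y * y) ≤ 2 * s ^ (1 / 4 : ℝ) * (y ^ (e0 / 4) * y) :=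
              mul_le_mul_of_nonneg_left e5 (by positivity)
          _ = y ^ (e0 / 4) * (2 * (s ^ (1 / 4 : ℝ) * y)) := by ring
          _ ≤ y ^ (e0 / 4) * (2 * p.th s r) :=
              mul_le_mul_of_nonneg_left (mul_le_mul_of_nonneg_left hth2 (by norm_num)) hye.le
          _ ≤ z := hz1
      have e7 : y ^ (-3 : ℝ) = y⁻¹ * y⁻¹ * y⁻¹ := by
        rw [Real.rpow_neg hy0.le, show (3 : ℝ) = ((3 : ℕ) : ℝ) by norm_num, Real.rpow_natCast,
          ← inv_pow]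
        ring
      rw [e7] at hJ1
      rw [e4]
      calc 4 * (s ^ (1 / 4 : ℝ) * y⁻¹)
          = 2 * (y⁻¹ * y⁻¹ * y⁻¹) * (2 * s ^ (1 / 4 : ℝ) * (y * y)) := by
            field_simp
            ring
        _ ≤ 2 ^ J * z := mul_le_mul hJ1 e6 (by positivity) (by positivity)
    have e8 : 0 ≤ cCI p s r := by
      unfold cCI
      positivity
    calc cCI p s r ^ 2 ≤ (2 ^ J * z) ^ 2 := pow_le_pow_left₀ e8 e3 2
      _ = 4 ^ J * z ^ 2 := by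
        rw [mul_pow, ← pow_mul, mul_comm J 2, pow_mul]
        norm_num
  have main := PCAf_pair hP hK₀ hbe hlam ho hN hA hE hEA hE0 hA0 hz0 hτ (by positivity) hJz
    (p.al U K) (fun _ _ => 0) (cb p s r U K u F3 Q3)
  refine main.trans ?_
  set V : ℝ := s * 8 ^ K with hV
  have hV0 : 0 < V := by positivity
  set X : ℝ := C * y ^ (-(δ / 2)) with hX
  have hX0 : 0 ≤ X := mul_nonneg hC (Real.rpow_nonneg hy0.le _)
  set τ : ℝ := tauI p s r with hτd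
  have e9 : y ^ (e0 / 2) = y ^ (e0 / 4) * y ^ (e0 / 4) := by
    rw [← Real.rpow_add hy0]
    congr 1
    ring
  have e10 : √(z ^ 2 * (X * V * y ^ (e0 / 2)) * (τ ^ 2 * (X * V))) =
      X * V * (y ^ (e0 / 4) * (τ * z)) := by
    rw [e9, show z ^ 2 * (X * V * (y ^ (e0 / 4) * y ^ (e0 / 4))) * (τ ^ 2 * (X * V)) =
      (X * V * (y ^ (e0 / 4) * (τ * z))) ^ 2 by ring]
    exact Real.sqrt_sq (by positivity)
  have e11 : τ ^ 2 * (X * V * y ^ (e0 / 2)) ≤ X * V * (y ^ (e0 / 4) * (τ * z)) := by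
    rw [e9]
    calc τ ^ 2 * (X * V * (y ^ (e0 / 4) * y ^ (e0 / 4)))
        = X * V * (y ^ (e0 / 4) * (τ * (y ^ (e0 / 4) * τ))) := by ring
      _ ≤ X * V * (y ^ (e0 / 4) * (τ * z)) := by
        refine mul_le_mul_of_nonneg_left ?_ (by positivity)
        refine mul_le_mul_of_nonneg_left ?_ hye.le
        exact mul_le_mul_of_nonneg_left hz1 hτ.le
  have e12 : ((J : ℝ) + 1) ^ 3 * X ≤ C2 * C * y ^ (-δ) := by
    have e13 : y ^ (-δ) = y ^ (-(δ / 2)) * y ^ (-(δ / 2)) := by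
      rw [← Real.rpow_add hy0]
      congr 1
      ring
    rw [hX, e13]
    calc ((J : ℝ) + 1) ^ 3 * (C * y ^ (-(δ / 2)))
        ≤ C2 * y ^ (-(δ / 2)) * (C * y ^ (-(δ / 2))) :=
          mul_le_mul_of_nonneg_right hJ2 hX0
      _ = _ := by ring
  show K₀ * ((J : ℝ) + 1) ^ 3 * (√(z ^ 2 * (X * V * y ^ (e0 / 2)) * (τ ^ 2 * (X * V))) +
    τ ^ 2 * (X * V * y ^ (e0 / 2))) ≤ 2 * K₀ * C2 * C * y ^ (-δ) * V * (y ^ (e0 / 4) * (τ * z))
  rw [e10]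
  calc K₀ * ((J : ℝ) + 1) ^ 3 * (X * V * (y ^ (e0 / 4) * (τ * z)) + τ ^ 2 * (X * V * y ^ (e0 / 2)))
      ≤ K₀ * ((J : ℝ) + 1) ^ 3 * (X * V * (y ^ (e0 / 4) * (τ * z)) +
          X * V * (y ^ (e0 / 4) * (τ * z))) :=
        mul_le_mul_of_nonneg_left (by linarith) (by positivity)
    _ = 2 * K₀ * (((J : ℝ) + 1) ^ 3 * X) * (V * (y ^ (e0 / 4) * (τ * z))) := by ring
    _ ≤ 2 * K₀ * (C2 * C * y ^ (-δ)) * (V * (y ^ (e0 / 4) * (τ * z))) := by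
        refine mul_le_mul_of_nonneg_right (mul_le_mul_of_nonneg_left e12 (by positivity)) ?_
        positivity
    _ = 2 * K₀ * C2 * C * y ^ (-δ) * V * (y ^ (e0 / 4) * (τ * z)) := by ring

end

end Vale.Agent.P141.H808
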