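import Vale.Agent.P141.H808.NumCA
import Vale.Agent.P141.H447.NumI
import Vale.Agent.P141.H652.RedI

/-!
# P141, line (A), increasing part: variation and drift of the stack at class data

`fVar : FVar`, `fDr : FDr`, from the moves of `H447.NumI` and the potential of the root.
-/

namespace Vale.Agent.P141.H808

open Finset Matrix
open Vale.Agent.P141.PL (Pt iv ix cx mem_iv)
open Vale.Agent.P141.PL.H315 (Tri)
open Vale.Agent.P141.H48 (US ES BSl)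
open Vale.Agent.P141.H305 (ClsM kapM)
open Vale.Agent.P141.H401 (StQ cA cb mC)
open Vale.Agent.P141.H677 (KT GT rt cP tr_T kF)
open Vale.Agent.P141.H652 (eb ah)
open Vale.Agent.P141.H505.Sk1 (eT eM dTh)
open Vale.Agent.P141.H44.Ti (At Cs Ww ah')
open Vale.Agent.P141.H447 (WI MI EI)
open Vale.Agent.P141.H408

noncomputable section

open scoped Classical

set_option linter.unusedVariables false

theorem rt_card (M : Pt) : (rt M).card = 3 := by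
  unfold H677.rt
  rw [Int.card_Icc]
  omega

section fam

variable {ι : Type} [Fintype ι] [DecidableEq ι]

/-- the weight of the line at `(x1, z)` -/
def wl (p : H401.Num) (ez : ℝ) (U : Tri) (K : ℕ) (F2 : ℕ → Pt → ℝ) (x1 z : ℤ) (k : ℕ) (x0 : ℤ) :
    ℝ := ez⁻¹ * kF p.Lm U.2.1 K F2 k (x0, x1, z) ^ 2

theorem wl_nonneg {p : H401.Num} {ez : ℝ} (hez : 0 < ez) (U : Tri) (K : ℕ) (F2 : ℕ → Pt → ℝ)
    (x1 z : ℤ) (k : ℕ) (x0 : ℤ) : 0 ≤ wl p ez U K F2 x1 z k x0 := by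
  unfold wl
  positivity

theorem wl_line {p : H401.Num} {ez cP : ℝ} (hez : 0 < ez) (U : Tri) {n K : ℕ} (hK : K ≤ n)
    {F2 : ℕ → Pt → ℝ} {Q : ℕ → Pt → Prop} (h : BSl n ez cP F2 Q) (x1 z : ℤ) {k : ℕ}
    (hk : k ∈ Icc 1 K) (j : ℤ) : ∑ x0 ∈ iv k j, wl p ez U K F2 x1 z k x0 ≤ 1 * 2 ^ k := by
  unfold wl
  rw [← mul_sum, one_mul]
  calc ez⁻¹ * ∑ x0 ∈ iv k j, kF p.Lm U.2.1 K F2 k (x0, x1, z) ^ 2
      ≤ ez⁻¹ * (ez * 2 ^ k) :=
        mul_le_mul_of_nonneg_left (H652.line_kF hK h hk j x1 z) (inv_nonneg.2 hez.le)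
    _ = 2 ^ k := by
        rw [← mul_assoc, inv_mul_cancel₀ hez.ne', one_mul]

/-- the stack at the time `k + 1` -/
theorem cS_succ (p : H401.Num) (ez : ℝ) (U : Tri) (K : ℕ) (v : ℤ → ℤ → ι → ℝ)
    (F2 : ℕ → Pt → ℝ) (x0 : ℤ) {k : ℕ} (hk : k + 1 ≤ K) (x1 z : ℤ) :
    cS p ez U K v F2 x0 (k + 1) x1 z =
      ((√ez)⁻¹ * kF p.Lm U.2.1 K F2 (k + 1) (x0, x1, z)) • v x1 z := by
  show C1 p ez U K v F2 x0 (min (k + 1) K) z x1 = _
  rw [min_eq_left hk, mul_smul]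
  rfl

omit [DecidableEq ι] in
theorem quad_smul (A : Matrix ι ι ℝ) (q : ℝ) (w : ι → ℝ) :
    (q • w) ⬝ᵥ A *ᵥ (q • w) = q ^ 2 * (w ⬝ᵥ A *ᵥ w) := by
  rw [mulVec_smul, dotProduct_smul, smul_dotProduct, smul_eq_mul, smul_eq_mul]
  ring

omit [DecidableEq ι] in
theorem nsq_smul' (A : Matrix ι ι ℝ) (q : ℝ) (w : ι → ℝ) :
    (A *ᵥ (q • w)) ⬝ᵥ (A *ᵥ (q • w)) = q ^ 2 * ((A *ᵥ w) ⬝ᵥ (A *ᵥ w)) := by
  rw [mulVec_smul, dotProduct_smul, smul_dotProduct, smul_eq_mul, smul_eq_mul]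
  ring

theorem q_sq {p : H401.Num} {ez : ℝ} (hez : 0 < ez) (U : Tri) (K : ℕ) (F2 : ℕ → Pt → ℝ)
    (x1 z : ℤ) (k : ℕ) (x0 : ℤ) :
    ((√ez)⁻¹ * kF p.Lm U.2.1 K F2 k (x0, x1, z)) ^ 2 = wl p ez U K F2 x1 z k x0 := by
  unfold wl
  rw [mul_pow, inv_pow, Real.sq_sqrt hez.le]

/-- **The charge of a move at a point.** -/
theorem eM_pt {p : H401.Num} (ht : 0 < p.t) {s r : ℝ} (hs : 0 < s) (hr : 1 ≤ r) (o : ℤ) (K : ℕ)
    (x : Pt) (u : ℤ → ℤ → ι → ℝ) (c : ℤ → ℤ → ι → ℝ) (x0 : ℤ) (k : ℕ) (x1 z : ℤ) :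
    eM c (thS p s r o K x u x0) (mS p s r o K x u x0) k x1 z ≤
      5 * (beI p r)⁻¹ *
        ((ah (p.lam s r) K (cx K x).2.1 (KT (p.lam s r) u x1) (o - 2) x0 x1 k (ix (k + 1) z) *ᵥ
          c x1 z) ⬝ᵥ
        (ah (p.lam s r) K (cx K x).2.1 (KT (p.lam s r) u x1) (o - 2) x0 x1 k (ix (k + 1) z) *ᵥ
          c x1 z)) +
      8 * (beI p r)⁻¹ * (c x1 z ⬝ᵥ
        eb (p.lam s r) K (cx K x).2.1 (KT (p.lam s r) u x1) (o - 2) x0 x1 (k + 1)
          (ix (k + 1) z) *ᵥ c x1 z) := by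
  have hl : 0 < p.lam s r := H401.Num.lam_pos (p := p) ht hs hr
  have hbe : 0 < beI p r := Real.rpow_pos_of_pos (div_pos ht (by linarith)) _
  have hT : ∀ x1, H420.Tr (p.lam s r) K (GT u x1) (KT (p.lam s r) u x1) := fun x1 =>
    tr_T hl K u x1
  have hge : ∀ k' (m : ℤ), (thS p s r o K x u x0 x1 k' m -
      beI p r • (1 : Matrix ι ι ℝ)).PosSemidef := fun k' m =>
    H447.WI_ge (S := (cx K x).2.1) (c := o - 2) (x0 := x0) hT x1 k' m
  have h1 := H447.par_pt (l := p.lam s r) (N := K) (S := (cx K x).2.1) (Kq := KT (p.lam s r) u)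
    (c := o - 2) (x0 := x0) hbe (hge (k + 1) (ix (k + 1) z)) x1 k (ix (k + 1) z) (c x1 z)
  have hd : dTh (thS p s r o K x u x0) k x1 z =
      -EI (p.lam s r) K (cx K x).2.1 (KT (p.lam s r) u) (o - 2) x0 x1 (k + 1) (ix (k + 1) z) +
        MI (p.lam s r) K (cx K x).2.1 (KT (p.lam s r) u) (o - 2) x0 x1 (k + 1) (ix (k + 1) z) ∨
      dTh (thS p s r o K x u x0) k x1 z =
      -EI (p.lam s r) K (cx K x).2.1 (KT (p.lam s r) u) (o - 2) x0 x1 (k + 1) (ix (k + 1) z) -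
        MI (p.lam s r) K (cx K x).2.1 (KT (p.lam s r) u) (o - 2) x0 x1 (k + 1)
          (ix (k + 1) z) := by
    have e1 : ix k z = 2 * ix (k + 1) z ∨ ix k z = 2 * ix (k + 1) z + 1 := by
      have e2 : ix (k + 1) z = ix k z / 2 := by
        unfold PL.ix
        rw [pow_succ, Int.ediv_ediv_of_nonneg (by positivity)]
      omega
    have hL := H447.WI_left (β := beI p r) (l := p.lam s r) (N := K) (S := (cx K x).2.1)
      (Kq := KT (p.lam s r) u) (c := o - 2) (x0 := x0) x1 k (ix (k + 1) z)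
    have hR := H447.WI_right (β := beI p r) (l := p.lam s r) (N := K) (S := (cx K x).2.1)
      (Kq := KT (p.lam s r) u) (c := o - 2) (x0 := x0) x1 k (ix (k + 1) z)
    rcases e1 with e1 | e1
    · left
      show thS p s r o K x u x0 x1 k (ix k z) - thS p s r o K x u x0 x1 (k + 1) (ix (k + 1) z) = _
      rw [e1]
      refine (sub_eq_iff_eq_add.2 ?_)
      refine hL.trans ?_
      show _ = _ + WI (beI p r) (p.lam s r) K (cx K x).2.1 (KT (p.lam s r) u) (o - 2) x0 x1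
        (k + 1) (ix (k + 1) z)
      abel
    · right
      show thS p s r o K x u x0 x1 k (ix k z) - thS p s r o K x u x0 x1 (k + 1) (ix (k + 1) z) = _
      rw [e1]
      refine (sub_eq_iff_eq_add.2 ?_)
      refine hR.trans ?_
      show _ = _ + WI (beI p r) (p.lam s r) K (cx K x).2.1 (KT (p.lam s r) u) (o - 2) x0 x1
        (k + 1) (ix (k + 1) z)
      abel
  have h2 := H447.child_pt hbe hT (hge k (ix k z)) x1 k (ix (k + 1) z) hd (c x1 z)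
  have h3 : 0 ≤ (ah (p.lam s r) K (cx K x).2.1 (KT (p.lam s r) u x1) (o - 2) x0 x1 k
      (ix (k + 1) z) *ᵥ c x1 z) ⬝ᵥ (ah (p.lam s r) K (cx K x).2.1 (KT (p.lam s r) u x1) (o - 2)
      x0 x1 k (ix (k + 1) z) *ᵥ c x1 z) := H447.dot_self_nonneg _
  have h4 : 0 ≤ c x1 z ⬝ᵥ eb (p.lam s r) K (cx K x).2.1 (KT (p.lam s r) u x1) (o - 2) x0 x1
      (k + 1) (ix (k + 1) z) *ᵥ c x1 z :=
    form_nonneg (H652.eb_psd (hT x1) (o - 2) x0 x1 (k + 1) (ix (k + 1) z)) _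
  have hb : 0 < (beI p r)⁻¹ := inv_pos.2 hbe
  have h5 := mul_nonneg hb.le h3
  have h6 := mul_nonneg hb.le h4
  refine (add_le_add h1 h2).trans ?_
  linarith

/-- the potential of the root with a factor -/
theorem pot_root' {K : ℕ} {x : Pt} {s r P : ℝ} {U : Tri}
    {g : ℤ → ℤ → ℝ} {u v : ℤ → ℤ → ι → ℝ} (hP : 0 ≤ P) (C : H305.Cls K x s r P U g u v) {l : ℝ}
    (hl : 0 < l) {M : ℝ} (hM : 0 ≤ M) :
    ∑ t ∈ rt (cx K x), ∑ x1 ∈ iv K (cx K x).1, ∑ x3 ∈ iv K (cx K x).2.2,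
        1 * (2 ^ K * (M * l⁻¹ * (v x1 x3 ⬝ᵥ GT u x1 K (cx K x).2.1 *ᵥ v x1 x3))) ≤
      3 * M * (P / l) * (s * 8 ^ K) := by
  have h := H652.pot_root hP C hl
  rw [sum_const, rt_card, nsmul_eq_mul]
  have e : ∑ x1 ∈ iv K (cx K x).1, ∑ x3 ∈ iv K (cx K x).2.2,
      1 * (2 ^ K * (M * l⁻¹ * (v x1 x3 ⬝ᵥ GT u x1 K (cx K x).2.1 *ᵥ v x1 x3))) =
      M / 12288 * (2 ^ K * ∑ x1 ∈ iv K (cx K x).1, ∑ x3 ∈ iv K (cx K x).2.2,
        12288 * l⁻¹ * (v x1 x3 ⬝ᵥ GT u x1 K (cx K x).2.1 *ᵥ v x1 x3)) := by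
    simp only [mul_sum]
    refine sum_congr rfl fun x1 _ => sum_congr rfl fun x3 _ => ?_
    ring
  rw [e]
  have h2 := mul_le_mul_of_nonneg_left h (by positivity : (0 : ℝ) ≤ M / 12288)
  push_cast
  calc 3 * (M / 12288 * (2 ^ K * ∑ x1 ∈ iv K (cx K x).1, ∑ x3 ∈ iv K (cx K x).2.2,
        12288 * l⁻¹ * (v x1 x3 ⬝ᵥ GT u x1 K (cx K x).2.1 *ᵥ v x1 x3)))
      ≤ 3 * (M / 12288 * (12288 * (P / l) * s * 8 ^ K)) :=
        mul_le_mul_of_nonneg_left h2 (by norm_num)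
    _ = _ := by ring

end fam

/-- the gap of the classes: `P / l = L t ^ (-c) y ^ e0` -/
theorem gap_le {t r s L c e0 δ : ℝ} (ht : 0 < t) (ht1 : t ≤ 1) (hs : 0 < s) (hr : 1 ≤ r)
    (hL : 0 ≤ L) (hc : 0 ≤ c) (hcδ : c ≤ δ) :
    L * t ^ (2 - c) * √s / (t ^ (2 - e0) * √s * r ^ e0) ≤
      L * ((t / r) ^ (-δ) * (t / r) ^ e0) := by
  have hr0 : 0 < r := by linarith
  have hS : 0 < √s := Real.sqrt_pos.2 hs
  have hy0 : 0 < t / r := div_pos ht hr0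
  have hyt : t / r ≤ t := by
    rw [div_le_iff₀ hr0]
    nlinarith
  have hy1 : t / r ≤ 1 := hyt.trans ht1
  have ht2 : 0 < t ^ (2 - e0) := Real.rpow_pos_of_pos ht _
  have hr2 : 0 < r ^ e0 := Real.rpow_pos_of_pos hr0 _
  have e1 : L * t ^ (2 - c) * √s / (t ^ (2 - e0) * √s * r ^ e0) =
      L * (t ^ (-c) * (t / r) ^ e0) := by
    rw [div_eq_iff (by positivity), Real.div_rpow ht.le hr0.le]
    have e2 : t ^ (2 - c) = t ^ (-c) * t ^ e0 * t ^ (2 - e0) := by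
      rw [← Real.rpow_add ht, ← Real.rpow_add ht]
      congr 1
      ring
    rw [e2]
    field_simp
  rw [e1]
  have e3 : t ^ (-c) ≤ (t / r) ^ (-δ) :=
    calc t ^ (-c) ≤ (t / r) ^ (-c) := by
          rw [Real.rpow_neg ht.le, Real.rpow_neg hy0.le]
          exact inv_anti₀ (Real.rpow_pos_of_pos hy0 _) (Real.rpow_le_rpow hy0.le hyt hc)
      _ ≤ (t / r) ^ (-δ) := Real.rpow_le_rpow_of_exponent_ge hy0 hy1 (by linarith)
  exact mul_le_mul_of_nonneg_left (mul_le_mul_of_nonneg_right e3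
    (Real.rpow_nonneg hy0.le _)) hL

/-- **Quadratic variation of the stack.** -/
theorem fVar : FVar := by
  intro a ha ha1
  refine ⟨1, one_pos, fun e0 he0 _ => ⟨1, one_pos, fun k8 _ _ => ⟨1, one_pos, fun k3 _ _ δ hδ =>
    ⟨δ, 1, hδ, one_pos, fun c hc hcc d hd hdd Kt e cP L hK he hcP hL =>
      ⟨122928 * L, by positivity, ?_⟩⟩⟩⟩⟩
  intro t ht ht1 n ez F1 F2 F3 h1 h3 h2 o ho K hKn x ι _ _ s r U g u v hs hr hcls Q1 Q2 Q3 q1 q2 q3
    hez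
  set p : H401.Num := ⟨a, e0, k8, k3, c, d, Kt, e, cP, L, 1, t⟩ with hp
  have hr0 : 0 < r := by linarith
  have hy0 : 0 < t / r := div_pos ht hr0
  have hl : 0 < p.lam s r := H401.Num.lam_pos (p := p) ht hs hr
  have hbe : 0 < beI p r := Real.rpow_pos_of_pos hy0 _
  have hpt : ∀ k ∈ Ico 0 K, ∀ x0 x1 z,
      eM (cS p ez U K v F2 x0 (k + 1)) (thS p s r o K x u x0) (mS p s r o K x u x0) k x1 z ≤
      wl p ez U K F2 x1 z (k + 1) x0 * (5 * (beI p r)⁻¹ *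
        ((ah (p.lam s r) K (cx K x).2.1 (KT (p.lam s r) u x1) (o - 2) x0 x1 k (ix (k + 1) z) *ᵥ
          v x1 z) ⬝ᵥ
        (ah (p.lam s r) K (cx K x).2.1 (KT (p.lam s r) u x1) (o - 2) x0 x1 k (ix (k + 1) z) *ᵥ
          v x1 z)) +
      8 * (beI p r)⁻¹ * (v x1 z ⬝ᵥ
        eb (p.lam s r) K (cx K x).2.1 (KT (p.lam s r) u x1) (o - 2) x0 x1 (k + 1)
          (ix (k + 1) z) *ᵥ v x1 z)) := by
    intro k hk x0 x1 z
    have hk1 : k + 1 ≤ K := by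
      have := (mem_Ico.1 hk).2
      omega
    refine (eM_pt (p := p) ht hs hr o K x u _ x0 k x1 z).trans (le_of_eq ?_)
    rw [cS_succ p ez U K v F2 x0 hk1 x1 z, nsq_smul', quad_smul, q_sq hez]
    ring
  calc ∑ t ∈ rt (cx K x), ∑ x0 ∈ iv K t, ∑ k ∈ Ico 0 K,
        ∑ x1 ∈ iv K (cx K x).1, ∑ z ∈ iv K (cx K x).2.2,
          eM (cS p ez U K v F2 x0 (k + 1)) (thS p s r o K x u x0) (mS p s r o K x u x0) k x1 z
      ≤ ∑ t ∈ rt (cx K x), ∑ x0 ∈ iv K t, ∑ k ∈ Ico 0 K,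
        ∑ x1 ∈ iv K (cx K x).1, ∑ z ∈ iv K (cx K x).2.2,
          wl p ez U K F2 x1 z (k + 1) x0 * (5 * (beI p r)⁻¹ *
            ((ah (p.lam s r) K (cx K x).2.1 (KT (p.lam s r) u x1) (o - 2) x0 x1 k
              (ix (k + 1) z) *ᵥ v x1 z) ⬝ᵥ
            (ah (p.lam s r) K (cx K x).2.1 (KT (p.lam s r) u x1) (o - 2) x0 x1 k
              (ix (k + 1) z) *ᵥ v x1 z)) +
          8 * (beI p r)⁻¹ * (v x1 z ⬝ᵥ
            eb (p.lam s r) K (cx K x).2.1 (KT (p.lam s r) u x1) (o - 2) x0 x1 (k + 1)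
              (ix (k + 1) z) *ᵥ v x1 z)) :=
        sum_le_sum fun t _ => sum_le_sum fun x0 _ => sum_le_sum fun k hk =>
          sum_le_sum fun x1 _ => sum_le_sum fun z _ => hpt k hk x0 x1 z
    _ = ∑ t ∈ rt (cx K x), ∑ x1 ∈ iv K (cx K x).1, ∑ z ∈ iv K (cx K x).2.2,
        ∑ k ∈ range K, ∑ x0 ∈ iv K t,
          wl p ez U K F2 x1 z (k + 1) x0 * (5 * (beI p r)⁻¹ *
            ((ah (p.lam s r) K (cx K x).2.1 (KT (p.lam s r) u x1) (o - 2) x0 x1 k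
              (ix (k + 1) z) *ᵥ v x1 z) ⬝ᵥ
            (ah (p.lam s r) K (cx K x).2.1 (KT (p.lam s r) u x1) (o - 2) x0 x1 k
              (ix (k + 1) z) *ᵥ v x1 z)) +
          8 * (beI p r)⁻¹ * (v x1 z ⬝ᵥ
            eb (p.lam s r) K (cx K x).2.1 (KT (p.lam s r) u x1) (o - 2) x0 x1 (k + 1)
              (ix (k + 1) z) *ᵥ v x1 z)) := by
        refine sum_congr rfl fun t _ => ?_
        rw [← Finset.range_eq_Ico, sum_comm]
        rw [sum_congr rfl fun k _ => sum_comm]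
        rw [sum_comm]
        refine sum_congr rfl fun x1 _ => ?_
        rw [sum_congr rfl fun k _ => sum_comm]
        rw [sum_comm]
    _ ≤ ∑ t ∈ rt (cx K x), ∑ x1 ∈ iv K (cx K x).1, ∑ x3 ∈ iv K (cx K x).2.2,
        1 * (2 ^ K * (40976 * (beI p r)⁻¹ * (p.lam s r)⁻¹ *
          (v x1 x3 ⬝ᵥ GT u x1 K (cx K x).2.1 *ᵥ v x1 x3))) :=
        sum_le_sum fun t _ => sum_le_sum fun x1 _ => sum_le_sum fun z _ =>
          H447.mv_I (tr_T hl K u x1) (v x1 z) zero_le_one hbe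
            (fun k x0 => wl_nonneg hez U K F2 x1 z k x0)
            (fun k hk j => wl_line hez U hKn q2 x1 z hk j) (iv K t) (o - 2) x1 z
    _ ≤ 3 * (40976 * (beI p r)⁻¹) * ((L * t ^ (2 - c) * √s) / p.lam s r) * (s * 8 ^ K) :=
        pot_root' (by positivity) hcls.toCls hl (by positivity)
    _ ≤ 3 * (40976 * (beI p r)⁻¹) * (L * ((t / r) ^ (-δ) * (t / r) ^ e0)) * (s * 8 ^ K) := by
        refine mul_le_mul_of_nonneg_right (mul_le_mul_of_nonneg_left ?_ (by positivity))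
          (by positivity)
        exact gap_le ht ht1 hs hr (by linarith) hc hcc
    _ = 122928 * L * (t / r) ^ (-δ) * (s * 8 ^ K) * (t / r) ^ (e0 / 2) := by
        have e1 : (t / r) ^ e0 = (t / r) ^ (e0 / 2) * (t / r) ^ (e0 / 2) := by
          rw [← Real.rpow_add hy0]
          congr 1
          ring
        have e2 : beI p r = (t / r) ^ (e0 / 2) := rfl
        have e3 : 0 < (t / r) ^ (e0 / 2) := Real.rpow_pos_of_pos hy0 _
        rw [e1, e2]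
        field_simp
        ring

/-- **Drift of the stack.** -/
theorem fDr : FDr := by
  intro a ha ha1
  refine ⟨1, one_pos, fun e0 he0 _ => ⟨1, one_pos, fun k8 _ _ => ⟨1, one_pos, fun k3 _ _ δ hδ =>
    ⟨δ, 1, hδ, one_pos, fun c hc hcc d hd hdd Kt e cP L hK he hcP hL =>
      ⟨6 * L, by positivity, ?_⟩⟩⟩⟩⟩
  intro t ht ht1 n ez F1 F2 F3 h1 h3 h2 o ho K hKn x ι _ _ s r U g u v hs hr hcls Q1 Q2 Q3 q1 q2 q3
    hez
  set p : H401.Num := ⟨a, e0, k8, k3, c, d, Kt, e, cP, L, 1, t⟩ with hp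
  have hr0 : 0 < r := by linarith
  have hy0 : 0 < t / r := div_pos ht hr0
  have hy1 : t / r ≤ 1 := by
    rw [div_le_one hr0]
    linarith
  have hl : 0 < p.lam s r := H401.Num.lam_pos (p := p) ht hs hr
  have hpt : ∀ k ∈ Ico 0 K, ∀ x0 x1 z,
      cS p ez U K v F2 x0 (k + 1) x1 z ⬝ᵥ
        nS p s r o K x u x0 x1 (k + 1) (ix (k + 1) z) *ᵥ cS p ez U K v F2 x0 (k + 1) x1 z =
      wl p ez U K F2 x1 z (k + 1) x0 * (v x1 z ⬝ᵥ
        eb (p.lam s r) K (cx K x).2.1 (KT (p.lam s r) u x1) (o - 2) x0 x1 (k + 1)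
          (ix (k + 1) z) *ᵥ v x1 z) := by
    intro k hk x0 x1 z
    have hk1 : k + 1 ≤ K := by
      have := (mem_Ico.1 hk).2
      omega
    rw [cS_succ p ez U K v F2 x0 hk1 x1 z, quad_smul, q_sq hez]
  calc ∑ t ∈ rt (cx K x), ∑ x0 ∈ iv K t, ∑ k ∈ Ico 0 K,
        ∑ x1 ∈ iv K (cx K x).1, ∑ z ∈ iv K (cx K x).2.2,
          cS p ez U K v F2 x0 (k + 1) x1 z ⬝ᵥ
            nS p s r o K x u x0 x1 (k + 1) (ix (k + 1) z) *ᵥ cS p ez U K v F2 x0 (k + 1) x1 z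
      = ∑ t ∈ rt (cx K x), ∑ x0 ∈ iv K t, ∑ k ∈ Ico 0 K,
        ∑ x1 ∈ iv K (cx K x).1, ∑ z ∈ iv K (cx K x).2.2,
          wl p ez U K F2 x1 z (k + 1) x0 * (v x1 z ⬝ᵥ
            eb (p.lam s r) K (cx K x).2.1 (KT (p.lam s r) u x1) (o - 2) x0 x1 (k + 1)
              (ix (k + 1) z) *ᵥ v x1 z) :=
        sum_congr rfl fun t _ => sum_congr rfl fun x0 _ => sum_congr rfl fun k hk =>
          sum_congr rfl fun x1 _ => sum_congr rfl fun z _ => hpt k hk x0 x1 z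
    _ = ∑ t ∈ rt (cx K x), ∑ x1 ∈ iv K (cx K x).1, ∑ z ∈ iv K (cx K x).2.2,
        ∑ k ∈ range K, ∑ x0 ∈ iv K t,
          wl p ez U K F2 x1 z (k + 1) x0 * (v x1 z ⬝ᵥ
            eb (p.lam s r) K (cx K x).2.1 (KT (p.lam s r) u x1) (o - 2) x0 x1 (k + 1)
              (ix (k + 1) z) *ᵥ v x1 z) := by
        refine sum_congr rfl fun t _ => ?_
        rw [← Finset.range_eq_Ico, sum_comm]
        rw [sum_congr rfl fun k _ => sum_comm]
        rw [sum_comm]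
        refine sum_congr rfl fun x1 _ => ?_
        rw [sum_congr rfl fun k _ => sum_comm]
        rw [sum_comm]
    _ ≤ ∑ t ∈ rt (cx K x), ∑ x1 ∈ iv K (cx K x).1, ∑ x3 ∈ iv K (cx K x).2.2,
        1 * (2 ^ K * (2 * (p.lam s r)⁻¹ *
          (v x1 x3 ⬝ᵥ GT u x1 K (cx K x).2.1 *ᵥ v x1 x3))) :=
        sum_le_sum fun t _ => sum_le_sum fun x1 _ => sum_le_sum fun z _ =>
          H447.dr_I (tr_T hl K u x1) (v x1 z) zero_le_one
            (fun k x0 => wl_nonneg hez U K F2 x1 z k x0)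
            (fun k hk j => wl_line hez U hKn q2 x1 z hk j) (iv K t) (o - 2) x1 z
    _ ≤ 3 * 2 * ((L * t ^ (2 - c) * √s) / p.lam s r) * (s * 8 ^ K) :=
        pot_root' (by positivity) hcls.toCls hl (by norm_num)
    _ ≤ 3 * 2 * (L * ((t / r) ^ (-δ) * (t / r) ^ e0)) * (s * 8 ^ K) := by
        refine mul_le_mul_of_nonneg_right (mul_le_mul_of_nonneg_left ?_ (by norm_num))
          (by positivity)
        exact gap_le ht ht1 hs hr (by linarith) hc hcc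
    _ ≤ 3 * 2 * (L * ((t / r) ^ (-δ) * (t / r) ^ (e0 / 2))) * (s * 8 ^ K) := by
        refine mul_le_mul_of_nonneg_right (mul_le_mul_of_nonneg_left ?_ (by norm_num))
          (by positivity)
        refine mul_le_mul_of_nonneg_left (mul_le_mul_of_nonneg_left ?_
          (Real.rpow_nonneg hy0.le _)) (by linarith)
        exact Real.rpow_le_rpow_of_exponent_ge hy0 hy1 (by linarith)
    _ = 6 * L * (t / r) ^ (-δ) * (s * 8 ^ K) * (t / r) ^ (e0 / 2) := by ring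

end

end Vale.Agent.P141.H808
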