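import Vale.Agent.P141.H808.VarDr
import Vale.Agent.P141.H883.FCap
import Vale.Agent.P141.H408.SkelTI3

/-!
# P141, line (A), increasing part: the leaf `LCA`, assembly
-/

namespace Vale.Agent.P141.H808

open Vale.Agent.P141.H408
open Vale.Agent.P141.H505.Sk1 (PairACr)

/-- **The leaf `LCA` from the raw pair theorem and the four fields still open.** -/
theorem lca_of_fields {K₀ : ℝ} (hP : PairACr K₀) (hK₀ : 0 ≤ K₀) (h1 : FEn) (h4 : FBorn)
    (h5 : FCross) (h7 : FA) : LCA :=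
  lca_end hP hK₀ (numCA_of h1 fVar fDr h4 h5 H883.fCap h7)

theorem lcau_of_fields {K₀ : ℝ} (hP : PairACr K₀) (hK₀ : 0 ≤ K₀) (h1 : FEn) (h4 : FBorn)
    (h5 : FCross) (h7 : FA) : LCAu :=
  (lca_of_fields hP hK₀ h1 h4 h5 h7).toU

end Vale.Agent.P141.H808
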