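import Vale.Agent.P141.H808.LcaF
import Vale.Agent.P141.H170.PairT
import Vale.Agent.P141.H816.NumAI

/-!
# P141, line (A), increasing part: the leaf `LCA`, three fields open
-/

namespace Vale.Agent.P141.H808

/-- **The leaf `LCA` from the fields energy, births and cross births.** -/
theorem lca_of3 (h1 : FEn) (h4 : FBorn) (h5 : FCross) : H408.LCA :=
  lca_of_fields H170.PairT.pairACr (by norm_num) h1 h4 h5 H816.NI.fA

end Vale.Agent.P141.H808
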